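import Vale.Agent.P183.H491.One

/-!
Lattices with at most eight elements: one possible exception. An interval in the subgroup lattice
of `S^Ω ⋊ (S ≀ S₃)` for every finite nonabelian simple group `S`.
-/

namespace Vale.Agent.Results.P183.OneException

open Vale.Agent.P183 Vale.Agent.P183.H491 Vale.Agent.P183.H552 Vale.Agent.P183.H996

theorem result :
    -- (1) all lattices with at most eight elements are representable, with at most one possible
    -- exception up to isomorphism and duality
    (∀ (L : Type) [Lattice L] [Finite L] [Nonempty L], Nat.card L ≤ 8 →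
      Representable L ∨ Nonempty (L ≃o Ord8 (exc3 0)) ∨ Nonempty (L ≃o (Ord8 (exc3 0))ᵒᵈ)) ∧
    -- (2) the case of at most eight elements is equivalent to this lattice
    ((∀ (L : Type) [Lattice L] [Finite L] [Nonempty L], Nat.card L ≤ 8 → Representable L) ↔
      Representable (Ord8 (exc3 0))) ∧
    -- (3) the lattice with the middle part `1 < 2 < 4`, `1 < 5`, `3 < 4` and `6` and its dual are
    -- representable, and they are intervals in subgroup lattices of finite groups
    (Representable (Ord8 (exc3 1)) ∧ Representable (Ord8 (exc3 1))ᵒᵈ ∧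
      GroupInterval (Ord8 (exc3 1)) ∧ GroupInterval (Ord8 (exc3 1))ᵒᵈ) ∧
    -- (4) it is an interval in the subgroup lattice of the group `W S` for every finite
    -- nonabelian simple group `S`
    (∀ (S : Type) [Group S] [Finite S] [IsSimpleGroup S], (∃ a b : S, a * b ≠ b * a) →
      ∃ R : Subgroup (W S),
        (∀ w : W S, w ∈ R ↔ w.right.right 0 = 0 ∧ ∀ x, w.left x = w.right.left 0) ∧
        Nonempty (Ord8 (exc3 1) ≃o {K : Subgroup (W S) // R ≤ K})) :=
  ⟨fun L _ _ _ h => one_exception L h, eight_iff_one,
    ⟨rep_exc1, rep_exc1_dual, gi_exc1, GroupInterval.dual gi_exc1⟩,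
    fun _ _ _ _ hS => ⟨_, fun _ => mem_R, interval_iso hS⟩⟩

end Vale.Agent.Results.P183.OneException
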